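import Vale.Agent.P167.H15.Frz

/-!
# P167: planar duality in the region of an arm

The region `AG`: the upper half annulus `[X1, X2] × [h, N]` without the hole `[x1, x2] × [h, g)`,
together with the tube `(X2, X3) × [h, h')`. A site `(y + 1, g)` on the upper side of the hole and the
far side `X3` of the tube. `quad_arm`: duality for the site and the far side. `quad_arm'`: the
reflected region.
-/

set_option autoImplicit false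

namespace Vale.Agent.P167.H15

open Vale.Agent.P145.FB Vale.Agent.P153 Vale.Agent.P153.Topo Vale.Agent.P167
  Vale.Agent.P167.H632 Vale.Agent.P167.H871 Vale.Agent.P167.H704 Vale.Agent.P167.FK
open Vale.Agent.P167.H192.TA (Pw Pw.symm Pw.mono Pw.parity mem_Sc_compl)
open Vale.Agent.P167.N.NET (Jn Quad Fan fan_of)
open Relation

/-- The numbers of the region. -/
structure Geo (y g x1 x2 X1 X2 X3 h h' N : ℤ) : Prop where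
  h2 : 2 ≤ h
  hh : h < h'
  hg : h ≤ g
  gN : g ≤ N
  h'N : h' ≤ N
  y1 : x1 < y
  y2 : y < x2
  l1 : X1 < x1
  l2 : x2 < X2
  l3 : X2 + 3 ≤ X3

/-- The region of the arm. -/
def AG (g x1 x2 X1 X2 X3 h h' N : ℤ) : Set Pt :=
  {v | (X1 ≤ v.1 ∧ v.1 ≤ X2 ∧ h ≤ v.2 ∧ v.2 ≤ N ∧ ¬ (x1 ≤ v.1 ∧ v.1 ≤ x2 ∧ v.2 < g)) ∨
    (X2 < v.1 ∧ v.1 < X3 ∧ h ≤ v.2 ∧ v.2 < h')}

/-- The lead. -/
def ZG (y g X1 : ℤ) : Set Pt :=
  {v | (v.1 = y ∧ 0 ≤ v.2 ∧ v.2 < g) ∨ (v.2 = 0 ∧ X1 - 1 ≤ v.1 ∧ v.1 ≤ y)}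

/-- The frozen squares of the other colour. -/
def WG (y g x1 x2 X1 X2 X3 h h' N : ℤ) : Set Pt :=
  (RS (X1 - 1) X3 (-1) (N + 2) \ AG g x1 x2 X1 X2 X3 h h' N) \ ZG y g X1

/-- The sites of the lower side. -/
def S2G (e : Bool) (y g x2 X1 X3 h : ℤ) : Set Pt :=
  {s | (s.1 + s.2) % 2 = pr (!e) ∧ (X1 - 1 ≤ s.1 ∧ s.1 ≤ X3 ∧ -1 ≤ s.2) ∧
    (s.2 ≤ 0 ∨ (y + 1 ≤ s.1 ∧ s.1 ≤ x2 + 1 ∧ s.2 ≤ g) ∨ (y + 1 ≤ s.1 ∧ s.2 ≤ h))}

/-- The sites of the upper side. -/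
def S4G (e : Bool) (y g x1 X1 X2 X3 h h' N : ℤ) : Set Pt :=
  {s | (s.1 + s.2) % 2 = pr (!e) ∧ (X1 - 1 ≤ s.1 ∧ s.1 ≤ X3 ∧ s.2 ≤ N + 2) ∧
    (N + 1 ≤ s.2 ∨ (s.1 ≤ X1 ∧ 1 ≤ s.2) ∨ (s.1 ≤ y ∧ 1 ≤ s.2 ∧ s.2 ≤ h) ∨
      (x1 ≤ s.1 ∧ s.1 ≤ y ∧ 1 ≤ s.2 ∧ s.2 ≤ g) ∨ (X2 + 1 ≤ s.1 ∧ h' ≤ s.2))}

/-- The sites of the lead and of the left side. -/
def LG (e : Bool) (y g X1 N : ℤ) : Set Pt :=
  {s | (s.1 + s.2) % 2 = pr e ∧ ((s.1 = X1 - 1 ∧ -1 ≤ s.2 ∧ s.2 ≤ N + 2) ∨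
    (y ≤ s.1 ∧ s.1 ≤ y + 1 ∧ 0 ≤ s.2 ∧ s.2 ≤ g) ∨
    (X1 - 1 ≤ s.1 ∧ s.1 ≤ y + 1 ∧ 0 ≤ s.2 ∧ s.2 ≤ 1))}

/-- The sites of the right side. -/
def RG (e : Bool) (X3 N : ℤ) : Set Pt :=
  {s | (s.1 + s.2) % 2 = pr e ∧ s.1 = X3 ∧ -1 ≤ s.2 ∧ s.2 ≤ N + 2}

variable {e : Bool} {y g x1 x2 X1 X2 X3 h h' N : ℤ}

theorem pw_par {F : Set Pt} {s t : Pt} (h : Pw F s t) : (s.1 + s.2) % 2 = (t.1 + t.2) % 2 :=
  Pw.parity h

theorem frz_lead (G : Geo y g x1 x2 X1 X2 X3 h h' N) :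
    Frz e (X1 - 1) X3 (-1) (N + 2) (ZG y g X1) (fun s => s.1 = X1 - 1) (fun s => s.1 = X3)
      (LG e y g X1 N) (RG e X3 N) := by
  obtain ⟨h2, hh, hg, gN, h'N, y1, y2, l1, l2, l3⟩ := G
  refine ⟨?_, ?_, ?_, ?_, ?_, ?_, ?_, ?_⟩
  · intro v hv
    simp only [ZG, RS, Set.mem_ofPred_eq] at hv ⊢
    omega
  · intro s hs he h1
    rw [mem_rect] at hs
    exact ⟨he, Or.inl ⟨h1, by omega, by omega⟩⟩
  · intro s hs he h1
    rw [mem_rect] at hs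
    exact ⟨he, h1, by omega, by omega⟩
  · rintro s ⟨he, hs⟩
    refine ⟨he, ?_⟩
    have key : ∀ t : Pt, X1 - 1 ≤ t.1 → t.1 ≤ y + 1 → 0 ≤ t.2 → t.2 ≤ 1 →
        ∃ t' : Pt, t'.1 = X1 - 1 ∧ Pw (ZG y g X1) t t' := by
      intro t k1 k2 k3 k4
      obtain ⟨t', -, m2, m3⟩ := zig_left (F := ZG y g X1) (c := 0) (p := X1 - 1)
        (t.1 - (X1 - 1)).toNat t (by omega) (by omega) (fun j hj hj' => by
          simp only [ZG, Set.mem_ofPred_eq, true_and]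
          omega)
      exact ⟨t', m2, m3⟩
    rcases hs with hs | hs | hs
    · exact ⟨s, hs.1, ReflTransGen.refl⟩
    · obtain ⟨t, m1, m2, m3⟩ := zig_down (F := ZG y g X1) (c := y) (p := 0) s.2.toNat s (by omega)
        (by omega) (fun j hj hj' => by
          simp only [ZG, Set.mem_ofPred_eq, true_and]
          omega)
      obtain ⟨t', k1, k2⟩ := key t (by omega) (by omega) (by omega) (by omega)
      exact ⟨t', k1, m3.trans k2⟩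
    · exact key s (by omega) (by omega) (by omega) (by omega)
  · rintro s ⟨he, hs, -⟩
    exact ⟨he, s, hs, ReflTransGen.refl⟩
  · rintro s t ⟨he, -⟩ hst
    obtain ⟨s1, s2, s3⟩ := hst
    simp only [ZG, Set.mem_ofPred_eq] at s3
    refine ⟨by omega, ?_⟩
    clear he
    omega
  · rintro s t ⟨s1, s2, s3⟩ he
    simp only [ZG, Set.mem_ofPred_eq] at s3
    left
    refine ⟨he, ?_⟩
    clear he
    omega
  · rintro s ⟨-, hs⟩ ⟨-, hs', -⟩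
    omega

theorem mem_WG {v : Pt} : v ∈ WG y g x1 x2 X1 X2 X3 h h' N ↔
    (X1 - 1 ≤ v.1 ∧ v.1 < X3 ∧ -1 ≤ v.2 ∧ v.2 < N + 2) ∧
    ¬ ((X1 ≤ v.1 ∧ v.1 ≤ X2 ∧ h ≤ v.2 ∧ v.2 ≤ N ∧ ¬ (x1 ≤ v.1 ∧ v.1 ≤ x2 ∧ v.2 < g)) ∨
      (X2 < v.1 ∧ v.1 < X3 ∧ h ≤ v.2 ∧ v.2 < h')) ∧
    ¬ ((v.1 = y ∧ 0 ≤ v.2 ∧ v.2 < g) ∨ (v.2 = 0 ∧ X1 - 1 ≤ v.1 ∧ v.1 ≤ y)) := by
  simp only [WG, RS, AG, ZG, Set.mem_sdiff, Set.mem_ofPred_eq]
  tauto

theorem w_dn {F : Set Pt} (c : ℤ) (s : Pt) (hc : s.1 = c ∨ s.1 = c + 1) (hs : -1 ≤ s.2)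
    (hF : ∀ j, -1 ≤ j → j < s.2 → ((c, j) : Pt) ∈ F) : ∃ t : Pt, t.2 = -1 ∧ Pw F s t := by
  obtain ⟨t, -, m2, m3⟩ := zig_down (F := F) (c := c) (p := -1)
    (s.2 + 1).toNat s hc (by omega) hF
  exact ⟨t, m2, m3⟩

theorem w_up {F : Set Pt} (c : ℤ) (s : Pt) (hc : s.1 = c ∨ s.1 = c + 1) (hs : s.2 ≤ N + 2)
    (hF : ∀ j, s.2 ≤ j → j < N + 2 → ((c, j) : Pt) ∈ F) : ∃ t : Pt, t.2 = N + 2 ∧ Pw F s t := by
  obtain ⟨t, -, m2, m3⟩ := zig_up (F := F) (c := c) (q := N + 2)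
    (N + 2 - s.2).toNat s hc (by omega) hF
  exact ⟨t, m2, m3⟩

theorem w_ups (G : Geo y g x1 x2 X1 X2 X3 h h' N) (s : Pt) (k1 : X1 - 1 ≤ s.1) (k2 : s.1 ≤ X1)
    (k3 : 1 ≤ s.2) (k4 : s.2 ≤ N + 2) :
    ∃ t : Pt, t.2 = N + 2 ∧ Pw (WG y g x1 x2 X1 X2 X3 h h' N) s t := by
  obtain ⟨h2, hh, hg, gN, h'N, y1, y2, l1, l2, l3⟩ := G
  refine w_up (X1 - 1) s (by omega) k4 fun j hj hj' => ?_
  rw [mem_WG]
  dsimp only
  omega

theorem w_lft (G : Geo y g x1 x2 X1 X2 X3 h h' N) (s : Pt) (k1 : X1 - 1 ≤ s.1) (k2 : s.1 ≤ y)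
    (k3 : s.2 = 1) : ∃ t : Pt, t.2 = N + 2 ∧ Pw (WG y g x1 x2 X1 X2 X3 h h' N) s t := by
  have hG := G
  obtain ⟨h2, hh, hg, gN, h'N, y1, y2, l1, l2, l3⟩ := G
  obtain ⟨t, m1, m2, m3⟩ := zig_left (F := WG y g x1 x2 X1 X2 X3 h h' N) (c := 1)
    (p := X1 - 1) (s.1 - (X1 - 1)).toNat s (by omega) (by omega) (fun j hj hj' => by
      rw [mem_WG]
      dsimp only
      omega)
  obtain ⟨t', n1, n2⟩ := w_ups hG t (by omega) (by omega) (by omega) (by omega)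
  exact ⟨t', n1, m3.trans n2⟩

theorem w_dl (G : Geo y g x1 x2 X1 X2 X3 h h' N) (c : ℤ) (s : Pt) (hc : s.1 = c ∨ s.1 = c + 1)
    (hs : 1 ≤ s.2) (hc1 : X1 - 1 ≤ c) (hc2 : c < y)
    (hF : ∀ j, 1 ≤ j → j < s.2 → ((c, j) : Pt) ∈ WG y g x1 x2 X1 X2 X3 h h' N) :
    ∃ t : Pt, t.2 = N + 2 ∧ Pw (WG y g x1 x2 X1 X2 X3 h h' N) s t := by
  obtain ⟨t, m1, m2, m3⟩ := zig_down (F := WG y g x1 x2 X1 X2 X3 h h' N) (c := c) (p := 1)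
    (s.2 - 1).toNat s hc (by omega) hF
  obtain ⟨t', n1, n2⟩ := w_lft G t (by omega) (by omega) m2
  exact ⟨t', n1, m3.trans n2⟩

theorem s2_bot (G : Geo y g x1 x2 X1 X2 X3 h h' N) {s : Pt} (hs : s ∈ S2G e y g x2 X1 X3 h) :
    ∃ t : Pt, t.2 = -1 ∧ Pw (WG y g x1 x2 X1 X2 X3 h h' N) s t := by
  obtain ⟨he, hs1, hs2⟩ := hs
  obtain ⟨h2, hh, hg, gN, h'N, y1, y2, l1, l2, l3⟩ := G
  obtain ⟨c, hc, hc1, hc2⟩ : ∃ c, (s.1 = c ∨ s.1 = c + 1) ∧ c < X3 ∧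
      (s.2 ≤ 0 ∧ X1 - 1 ≤ c ∨ (y < c ∧ c ≤ x2 ∧ s.2 ≤ g) ∨ (y < c ∧ s.2 ≤ h)) := by
    by_cases k1 : s.2 ≤ 0
    · by_cases k2 : s.1 < X3
      · exact ⟨s.1, by omega, by omega, by omega⟩
      · exact ⟨s.1 - 1, by omega, by omega, by omega⟩
    · by_cases k3 : s.2 ≤ h
      · by_cases k2 : s.1 < X3
        · exact ⟨s.1, by omega, by omega, by omega⟩
        · exact ⟨s.1 - 1, by omega, by omega, by omega⟩
      · by_cases k2 : s.1 ≤ x2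
        · exact ⟨s.1, by omega, by omega, by omega⟩
        · exact ⟨s.1 - 1, by omega, by omega, by omega⟩
  refine w_dn c s hc (by omega) fun j hj hj' => ?_
  rw [mem_WG]
  dsimp only
  clear he hc
  omega

theorem s4_top (G : Geo y g x1 x2 X1 X2 X3 h h' N) {s : Pt}
    (hs : s ∈ S4G e y g x1 X1 X2 X3 h h' N) :
    ∃ t : Pt, t.2 = N + 2 ∧ Pw (WG y g x1 x2 X1 X2 X3 h h' N) s t := by
  obtain ⟨he, hs1, hs2⟩ := hs
  clear he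
  have hG := G
  obtain ⟨h2, hh, hg, gN, h'N, y1, y2, l1, l2, l3⟩ := G
  have r1 : ∀ s : Pt, X1 - 1 ≤ s.1 → s.1 ≤ X3 → s.2 ≤ N + 2 → (N + 1 ≤ s.2 ∨ (X2 + 1 ≤ s.1 ∧ h' ≤ s.2)) →
      ∃ t : Pt, t.2 = N + 2 ∧ Pw (WG y g x1 x2 X1 X2 X3 h h' N) s t := by
    intro s k1 k2 k3 k4
    obtain ⟨c, hc, hc1, hc2, hc3⟩ : ∃ c, (s.1 = c ∨ s.1 = c + 1) ∧ X1 - 1 ≤ c ∧ c < X3 ∧
        (N + 1 ≤ s.2 ∨ (X2 + 1 ≤ c ∧ h' ≤ s.2)) := by
      by_cases k2 : s.1 < X3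
      · exact ⟨s.1, by omega, by omega, by omega, by omega⟩
      · exact ⟨s.1 - 1, by omega, by omega, by omega, by omega⟩
    refine w_up c s hc (by omega) fun j hj hj' => ?_
    rw [mem_WG]
    dsimp only
    omega
  have r2 : ∀ s : Pt, X1 - 1 ≤ s.1 → s.1 ≤ y → 1 ≤ s.2 → (s.2 ≤ h ∨ (x1 ≤ s.1 ∧ s.2 ≤ g)) →
      ∃ t : Pt, t.2 = N + 2 ∧ Pw (WG y g x1 x2 X1 X2 X3 h h' N) s t := by
    intro s k1 k2 k3 k4
    obtain ⟨c, hc, hc1, hc2, hc3⟩ : ∃ c, (s.1 = c ∨ s.1 = c + 1) ∧ X1 - 1 ≤ c ∧ c < y ∧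
        (s.2 ≤ h ∨ (x1 ≤ c ∧ s.2 ≤ g)) := by
      by_cases k2 : s.1 < y
      · exact ⟨s.1, by omega, by omega, by omega, by omega⟩
      · exact ⟨s.1 - 1, by omega, by omega, by omega, by omega⟩
    refine w_dl hG c s hc k3 hc1 hc2 fun j hj hj' => ?_
    rw [mem_WG]
    dsimp only
    omega
  rcases hs2 with k | k | k | k | k
  · exact r1 s hs1.1 hs1.2.1 hs1.2.2 (Or.inl k)
  · exact w_ups hG s (by omega) (by omega) (by omega) (by omega)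
  · exact r2 s (by omega) (by omega) (by omega) (by omega)
  · exact r2 s (by omega) (by omega) (by omega) (by omega)
  · exact r1 s hs1.1 hs1.2.1 hs1.2.2 (Or.inr k)

theorem step_cor {F : Set Pt} {s t : Pt} (h : PStep F s t) : ∃ v ∈ F,
    (s.1 = v.1 ∨ s.1 = v.1 + 1) ∧ t.1 = 2 * v.1 + 1 - s.1 ∧ (s.2 = v.2 ∨ s.2 = v.2 + 1) ∧
      t.2 = 2 * v.2 + 1 - s.2 := by
  obtain ⟨s1, s2, s3⟩ := h
  refine ⟨_, s3, ?_⟩
  dsimp only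
  omega

/-- the lower frozen squares -/
def Lo' (y g x2 h : ℤ) (v : Pt) : Prop :=
  v.2 < 0 ∨ (y < v.1 ∧ v.1 ≤ x2 ∧ v.2 < g) ∨ (y < v.1 ∧ v.2 < h)

/-- the upper frozen squares -/
def Hi' (y g x1 X1 X2 h h' N : ℤ) (v : Pt) : Prop :=
  N < v.2 ∨ (v.1 < X1 ∧ 0 < v.2) ∨ (v.1 < y ∧ 0 < v.2 ∧ v.2 < h) ∨
    (x1 ≤ v.1 ∧ v.1 < y ∧ 0 < v.2 ∧ v.2 < g) ∨ (X2 < v.1 ∧ h' ≤ v.2)

theorem lo_or_hi (G : Geo y g x1 x2 X1 X2 X3 h h' N) {v : Pt}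
    (hv : v ∈ WG y g x1 x2 X1 X2 X3 h h' N) :
    Lo' y g x2 h v ∨ Hi' y g x1 X1 X2 h h' N v := by
  obtain ⟨h2, hh, hg, gN, h'N, y1, y2, l1, l2, l3⟩ := G
  rw [mem_WG] at hv
  obtain ⟨⟨a1, a2, a3, a4⟩, hG, hZ⟩ := hv
  unfold Lo' Hi'
  by_cases k1 : v.2 < 0
  · exact Or.inl (Or.inl k1)
  by_cases k2 : N < v.2
  · exact Or.inr (Or.inl k2)
  rcases lt_trichotomy v.1 y with k3 | k3 | k3
  · right
    have k4 : 0 < v.2 := by omega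
    by_cases k5 : v.1 < X1
    · exact Or.inr (Or.inl ⟨k5, k4⟩)
    by_cases k6 : v.2 < h
    · exact Or.inr (Or.inr (Or.inl ⟨k3, k4, k6⟩))
    · exact Or.inr (Or.inr (Or.inr (Or.inl ⟨by omega, k3, k4, by omega⟩)))
  · right
    by_cases k5 : v.2 < g
    · exact absurd (Or.inl ⟨k3, by omega, k5⟩) hZ
    · exact absurd (Or.inl ⟨by omega, by omega, by omega, by omega, by omega⟩) hG
  · by_cases k5 : v.2 < h
    · exact Or.inl (Or.inr (Or.inr ⟨k3, k5⟩))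
    by_cases k6 : v.1 ≤ x2
    · exact Or.inl (Or.inr (Or.inl ⟨k3, k6, by omega⟩))
    by_cases k7 : v.1 ≤ X2
    · exact absurd (Or.inl ⟨by omega, k7, by omega, by omega, by omega⟩) hG
    · exact Or.inr (Or.inr (Or.inr (Or.inr (Or.inr ⟨by omega, by omega⟩))))

/-- the sites of the lower side, without parity -/
def lo (y g x2 h : ℤ) (s : Pt) : Prop :=
  s.2 ≤ 0 ∨ (y + 1 ≤ s.1 ∧ s.1 ≤ x2 + 1 ∧ s.2 ≤ g) ∨ (y + 1 ≤ s.1 ∧ s.2 ≤ h)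

/-- the sites of the upper side, without parity -/
def hi (y g x1 X1 X2 h h' N : ℤ) (s : Pt) : Prop :=
  N + 1 ≤ s.2 ∨ (s.1 ≤ X1 ∧ 1 ≤ s.2) ∨ (s.1 ≤ y ∧ 1 ≤ s.2 ∧ s.2 ≤ h) ∨
    (x1 ≤ s.1 ∧ s.1 ≤ y ∧ 1 ≤ s.2 ∧ s.2 ≤ g) ∨ (X2 + 1 ≤ s.1 ∧ h' ≤ s.2)

theorem lo_cor {v s : Pt} (hv : Lo' y g x2 h v) (h1 : s.1 = v.1 ∨ s.1 = v.1 + 1)
    (h2 : s.2 = v.2 ∨ s.2 = v.2 + 1) : lo y g x2 h s := by
  rcases hv with k | k | k
  · exact Or.inl (by omega)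
  · exact Or.inr (Or.inl ⟨by omega, by omega, by omega⟩)
  · exact Or.inr (Or.inr ⟨by omega, by omega⟩)

theorem hi_cor {v s : Pt} (hv : Hi' y g x1 X1 X2 h h' N v) (h1 : s.1 = v.1 ∨ s.1 = v.1 + 1)
    (h2 : s.2 = v.2 ∨ s.2 = v.2 + 1) : hi y g x1 X1 X2 h h' N s := by
  rcases hv with k | k | k | k | k
  · exact Or.inl (by omega)
  · exact Or.inr (Or.inl ⟨by omega, by omega⟩)
  · exact Or.inr (Or.inr (Or.inl ⟨by omega, by omega, by omega⟩))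
  · exact Or.inr (Or.inr (Or.inr (Or.inl ⟨by omega, by omega, by omega, by omega⟩)))
  · exact Or.inr (Or.inr (Or.inr (Or.inr ⟨by omega, by omega⟩)))

theorem lo_hi (G : Geo y g x1 x2 X1 X2 X3 h h' N) {s : Pt} (h1 : lo y g x2 h s)
    (h2 : hi y g x1 X1 X2 h h' N s) : False := by
  obtain ⟨h2', hh, hg, gN, h'N, y1, y2, l1, l2, l3⟩ := G
  rcases h1 with k | k | k <;> rcases h2 with m | m | m | m | m <;> omega

theorem frz_out (G : Geo y g x1 x2 X1 X2 X3 h h' N) :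
    Frz (!e) (X1 - 1) X3 (-1) (N + 2) (WG y g x1 x2 X1 X2 X3 h h' N) (fun s => s.2 = -1)
      (fun s => s.2 = N + 2) (S2G e y g x2 X1 X3 h) (S4G e y g x1 X1 X2 X3 h h' N) := by
  have inR : ∀ {v s : Pt}, v ∈ WG y g x1 x2 X1 X2 X3 h h' N → (s.1 = v.1 ∨ s.1 = v.1 + 1) →
      (s.2 = v.2 ∨ s.2 = v.2 + 1) → X1 - 1 ≤ s.1 ∧ s.1 ≤ X3 ∧ -1 ≤ s.2 ∧ s.2 ≤ N + 2 := by
    intro v s hv h1 h2
    have h3 := (mem_WG.1 hv).1
    omega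
  refine ⟨?_, ?_, ?_, fun s hs => ⟨hs.1, s2_bot G hs⟩, fun s hs => ⟨hs.1, s4_top G hs⟩, ?_, ?_,
    fun s h1 h2 => lo_hi G h1.2.2 h2.2.2⟩
  · exact fun v hv => hv.1.1
  · intro s hs he h1
    rw [mem_rect] at hs
    exact ⟨he, by omega, by omega⟩
  · intro s hs he h1
    rw [mem_rect] at hs
    have := G.gN
    have := G.hg
    have := G.h2
    exact ⟨he, by omega, by omega⟩
  · rintro s t ⟨he, hs1, hs2⟩ hst
    obtain ⟨v, hv, c1, c2, c3, c4⟩ := step_cor hst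
    have h3 := inR (s := t) hv (by omega) (by omega)
    refine ⟨by omega, by omega, ?_⟩
    rcases lo_or_hi G hv with h4 | h4
    · exact lo_cor h4 (by omega) (by omega)
    · exact (lo_hi G hs2 (hi_cor h4 c1 c3)).elim
  · rintro s t hst he
    obtain ⟨v, hv, c1, c2, c3, c4⟩ := step_cor hst
    have h3 := inR (s := s) hv c1 c3
    rcases lo_or_hi G hv with h4 | h4
    · exact Or.inl ⟨he, by omega, lo_cor h4 c1 c3⟩
    · exact Or.inr ⟨he, by omega, hi_cor h4 c1 c3⟩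

/-- **Duality in the region of the arm.** -/
theorem quad_arm (G : Geo y g x1 x2 X1 X2 X3 h h' N) :
    Quad e (AG g x1 x2 X1 X2 X3 h h' N) (LG e y g X1 N) (RG e X3 N) (S2G e y g x2 X1 X3 h)
      (S4G e y g x1 X1 X2 X3 h h' N) := by
  have hl := frz_lead (e := e) G
  have ho := frz_out (e := e) G
  obtain ⟨h2, hh, hg, gN, h'N, y1, y2, l1, l2, l3⟩ := G
  refine quad_frz (a := X1 - 1) (b := X3) (p := -1) (q := N + 2) (by omega) (by omega) ?_ ?_ ?_ ?_ ?_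
    hl ho
  · intro v hv
    simp only [AG, RS, Set.mem_ofPred_eq] at hv ⊢
    omega
  · intro v hv
    by_cases k1 : v ∈ AG g x1 x2 X1 X2 X3 h h' N
    · exact Or.inl k1
    · by_cases k2 : v ∈ ZG y g X1
      · exact Or.inr (Or.inl k2)
      · exact Or.inr (Or.inr ⟨⟨hv, k1⟩, k2⟩)
  · intro v hv hv'
    simp only [AG, ZG, Set.mem_ofPred_eq] at hv hv'
    omega
  · exact fun v hv hv' => hv'.1.2 hv
  · exact fun v hv hv' => hv'.2 hv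

theorem fan_arm (G : Geo y g x1 x2 X1 X2 X3 h h' N) : Fan e (AG g x1 x2 X1 X2 X3 h h' N) := by
  obtain ⟨h2, hh, hg, gN, h'N, y1, y2, l1, l2, l3⟩ := G
  refine fan_of (fun m n k1 k2 => ?_) (fun m n k1 k2 => ?_)
  · simp only [AG, Set.mem_ofPred_eq] at k1 k2 ⊢
    rcases k1 with k1 | k1 <;> rcases k2 with k2 | k2 <;> omega
  · simp only [AG, Set.mem_ofPred_eq] at k1 k2 ⊢
    rcases k1 with k1 | k1 <;> rcases k2 with k2 | k2 <;> omega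

/-- **Duality for the site of the gate and the far side.** -/
theorem quad_gate (G : Geo y g x1 x2 X1 X2 X3 h h' N) (hp : (y + 1 + g) % 2 = pr e) :
    Quad e (AG g x1 x2 X1 X2 X3 h h' N) {(y + 1, g)} (RG e X3 N) (S2G e y g x2 X1 X3 h)
      (S4G e y g x1 X1 X2 X3 h h' N) := by
  have hQ := quad_arm (e := e) G
  obtain ⟨h2, hh, hg, gN, h'N, y1, y2, l1, l2, l3⟩ := G
  refine ⟨fun u hu => by rw [Set.mem_singleton_iff] at hu; rw [hu]; exact hp, hQ.p3, hQ.p2, hQ.p4,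
    fun w => ?_⟩
  rw [← hQ.iff]
  constructor
  · rintro ⟨u, hu, v, hv, huv⟩
    rw [Set.mem_singleton_iff] at hu
    subst hu
    refine ⟨_, ⟨hp, Or.inr (Or.inl ⟨?_, ?_, ?_, ?_⟩)⟩, v, hv, huv⟩ <;> dsimp only <;> omega
  · rintro ⟨u, hu, v, hv, huv⟩
    refine ⟨u, ?_, v, hv, huv⟩
    rcases ReflTransGen.cases_head huv with h1 | ⟨x, hx, -⟩
    · exfalso
      rw [h1] at hu
      obtain ⟨-, hu⟩ := hu
      obtain ⟨-, hv, -⟩ := hv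
      omega
    · obtain ⟨c, hc, c1, -, c3, -⟩ := step_cor hx
      have hc := hc.2
      simp only [AG, Set.mem_ofPred_eq] at hc
      obtain ⟨hup, hu⟩ := hu
      rw [Set.mem_singleton_iff]
      have h3 : h ≤ u.2 := by omega
      have h4 : X1 ≤ u.1 := by omega
      have h5 : y ≤ u.1 ∧ u.1 ≤ y + 1 ∧ u.2 ≤ g := by omega
      have h6 : u.2 = g := by
        rcases hc with hc | hc
        · by_contra h7
          apply hc.2.2.2.2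
          omega
        · omega
      have h7 : u.1 = y + 1 := by
        rw [← hp, h6] at hup
        omega
      exact Prod.ext h7 h6

/-! ### Reflection -/

/-- the reflected square -/
def rfq (v : Pt) : Pt := (-v.1 - 1, v.2)

/-- the reflected site -/
def rfs (s : Pt) : Pt := (-s.1, s.2)

theorem rfs_rfs (s : Pt) : rfs (rfs s) = s := by simp [rfs]

theorem rfq_rfq (s : Pt) : rfq (rfq s) = s := by simp [rfq]

theorem step_rf {F : Set Pt} {s t : Pt} (h : PStep F s t) : PStep (rfq ⁻¹' F) (rfs s) (rfs t) := by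
  obtain ⟨h1, h2, h3⟩ := h
  refine ⟨by simp only [rfs]; omega, h2, ?_⟩
  have e1 : rfq (min (rfs s).1 (rfs t).1, min (rfs s).2 (rfs t).2) =
      (min s.1 t.1, min s.2 t.2) := by
    refine Prod.ext ?_ rfl
    simp only [rfq, rfs]
    omega
  rw [Set.mem_preimage, e1]
  exact h3

theorem pw_rf {F : Set Pt} {s t : Pt} (h : Pw F s t) : Pw (rfq ⁻¹' F) (rfs s) (rfs t) := by
  induction h with
  | refl => exact ReflTransGen.refl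
  | tail _ h ih => exact ih.tail (step_rf h)

theorem jn_rf {G A B : Set Pt} {w : Cfg} (h : w ∈ Jn e G A B) :
    (fun v => w (rfq v)) ∈ Jn e (rfq ⁻¹' G) (rfs ⁻¹' A) (rfs ⁻¹' B) := by
  obtain ⟨u, hu, v, hv, huv⟩ := h
  refine ⟨rfs u, ?_, rfs v, ?_, pw_rf huv⟩
  · rw [Set.mem_preimage, rfs_rfs]
    exact hu
  · rw [Set.mem_preimage, rfs_rfs]
    exact hv

theorem jn_rf' {G A B : Set Pt} {w : Cfg} :
    w ∈ Jn e (rfq ⁻¹' G) (rfs ⁻¹' A) (rfs ⁻¹' B) ↔ (fun v => w (rfq v)) ∈ Jn e G A B := by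
  constructor
  · intro h
    have h1 := jn_rf h
    have e1 : rfq ⁻¹' (rfq ⁻¹' G) = G := by
      ext v; simp only [Set.mem_preimage, rfq_rfq]
    have e2 : ∀ A : Set Pt, rfs ⁻¹' (rfs ⁻¹' A) = A := fun A => by
      ext v; simp only [Set.mem_preimage, rfs_rfs]
    rwa [e1, e2, e2] at h1
  · intro h
    have h1 := jn_rf h
    have e1 : (fun v => w (rfq (rfq v))) = w := by
      funext v; rw [rfq_rfq]
    rwa [e1] at h1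

theorem par_rf {s : Pt} {c : ℤ} : ((rfs s).1 + (rfs s).2) % 2 = c ↔ (s.1 + s.2) % 2 = c := by
  simp only [rfs]
  omega

/-- **Reflection of the duality.** -/
theorem quad_rf {G A1 A3 S2 S4 : Set Pt} (H : Quad e G A1 A3 S2 S4) :
    Quad e (rfq ⁻¹' G) (rfs ⁻¹' A1) (rfs ⁻¹' A3) (rfs ⁻¹' S2) (rfs ⁻¹' S4) := by
  refine ⟨fun u hu => par_rf.1 (H.p1 _ hu), fun u hu => par_rf.1 (H.p3 _ hu),
    fun u hu => par_rf.1 (H.p2 _ hu), fun u hu => par_rf.1 (H.p4 _ hu), fun w => ?_⟩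
  rw [jn_rf', jn_rf', H.iff]

theorem fan_rf {G : Set Pt} (h : Fan e G) : Fan e (rfq ⁻¹' G) := by
  have hc : ∀ {c : Bool} {v x : Pt}, Vale.Agent.P167.N.NET.Cor c v x →
      Vale.Agent.P167.N.NET.Cor c (rfq v) (rfs x) := by
    intro c v x h
    simp only [Vale.Agent.P167.N.NET.Cor, rfq, rfs] at h ⊢
    omega
  intro x v v' y y' hv hv' hx hx' hy hy'
  have h1 := h (rfs x) (rfq v) (rfq v') (rfs y) (rfs y') hv hv' (hc hx) (hc hx') (hc hy) (hc hy')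
  have h2 := pw_rf h1
  rw [rfs_rfs, rfs_rfs] at h2
  refine Pw.mono ?_ h2
  rintro s ⟨hs1, hs2⟩
  refine ⟨hs1, ?_⟩
  have h3 := hc hs2
  rw [rfq_rfq, rfs_rfs] at h3
  exact h3

end Vale.Agent.P167.H15
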