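import Vale.Agent.P167.N.NET.Piv
import Vale.Agent.P167.H704.Q.Rs

/-!
# P167: planar duality in a region with frozen squares

`quad_frz`: the squares of a rectangle are the disjoint union of `G` and of the sets `Z` (colour `e`)
and `W` (the other colour) of frozen squares. If `L`, `R` are the sites which are joined to the left
and to the right side by frozen squares of the colour `e`, and `B`, `T` the sites which are joined to
the bottom and to the top by frozen squares of the other colour, then for every configuration either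
`L` and `R` are joined by squares of `G` of the colour `e` or `B` and `T` are joined by squares of `G`
of the other colour.
-/

set_option autoImplicit false

namespace Vale.Agent.P167.H15

open Vale.Agent.P145.FB Vale.Agent.P153 Vale.Agent.P153.Topo Vale.Agent.P167
  Vale.Agent.P167.H632 Vale.Agent.P167.H871 Vale.Agent.P167.H704 Vale.Agent.P167.FK
open Vale.Agent.P167.H192.TA (Pw Pw.symm Pw.mono Pw.parity mem_Sc_compl)
open Vale.Agent.P167.N.NET (Jn Quad)
open Relation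

/-- The configuration with the set `F` of squares of the colour `e`. -/
noncomputable def cof (e : Bool) (F : Set Pt) : Cfg := by
  classical
  exact fun v => if v ∈ F then e else !e

theorem cs_cof (e : Bool) (F : Set Pt) : cs e (cof e F) = F := by
  ext v
  unfold cs cof
  by_cases h : v ∈ F
  · simp [h]
  · simp only [h, if_false, Set.mem_ofPred_eq, iff_false]
    cases e <;> simp

theorem cs_cof' (e : Bool) (F : Set Pt) : cs (!e) (cof e F) = Fᶜ := by
  rw [← cs_compl, cs_cof]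

/-- **Exclusion in a rectangle.** -/
theorem excl_rect {F : Set Pt} {e a b c d : ℤ} (he : e = 0 ∨ e = 1) {s t s' t' : Pt}
    (h : PConn F (Rect a b c d) s t) (hs : s.1 = a) (ht : t.1 = b) (hse : (s.1 + s.2) % 2 = e)
    (h' : PConn Fᶜ (Rect a b c d) s' t') (hs' : s'.2 = c) (ht' : t'.2 = d)
    (hse' : (s'.1 + s'.2) % 2 = 1 - e) : False := by
  have k := lift h hse
  have k' := lift h' hse'
  set X := Sc e F ∩ Rect (2 * a) (2 * b) (2 * c) (2 * d) with hX
  set Y := Sc (1 - e) Fᶜ ∩ Rect (2 * a) (2 * b) (2 * c) (2 * d) with hY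
  obtain ⟨z, hz, hz'⟩ := cross (A := {z | Conn X (2 * s.1, 2 * s.2) z})
    (B := {z | Conn Y (2 * s'.1, 2 * s'.2) z}) (a := 2 * a) (b := 2 * b) (c := 2 * c) (d := 2 * d)
    (fun z hz => (show Conn X _ z from hz).right_mem.2) (fun z hz => (show Conn Y _ z from hz).right_mem.2)
    (x := (2 * s.1, 2 * s.2)) (x' := (2 * t.1, 2 * t.2)) (y := (2 * s'.1, 2 * s'.2))
    (y' := (2 * t'.1, 2 * t'.2))
    ((Conn.of_closed k (Conn.refl k.left_mem) fun x y hx _ hy hxy => hx.tail hxy hy).mono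
      Set.inter_subset_right) (by dsimp only; omega) (by dsimp only; omega)
    ((Conn.of_closed k' (Conn.refl k'.left_mem) fun x y hx _ hy hxy => hx.tail hxy hy).mono
      Set.inter_subset_right) (by dsimp only; omega) (by dsimp only; omega)
  have h1 := (show Conn X _ z from hz).right_mem.1
  have h2 := (show Conn Y _ z from hz').right_mem.1
  exact (mem_Sc_compl he).1 h2 h1

/-- the squares of the rectangle -/
def RS (a b p q : ℤ) : Set Pt := {v | a ≤ v.1 ∧ v.1 < b ∧ p ≤ v.2 ∧ v.2 < q}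

theorem step_rect {F : Set Pt} {a b p q : ℤ} {u v : Pt} (h : PStep (F ∩ RS a b p q) u v) :
    u ∈ Rect a b p q ∧ v ∈ Rect a b p q := by
  obtain ⟨h1, h2, -, h3⟩ := h
  simp only [RS, Set.mem_ofPred_eq] at h3
  rw [mem_rect, mem_rect]
  omega

theorem pw_rect {F : Set Pt} {a b p q : ℤ} {u v : Pt} (h : Pw (F ∩ RS a b p q) u v)
    (hu : u ∈ Rect a b p q) : PConn F (Rect a b p q) u v := by
  induction h with
  | refl => exact PConn.refl hu
  | tail _ h ih => exact ih.tail ⟨h.1, h.2.1, h.2.2.1⟩ (step_rect h).2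

theorem rect_pw {F : Set Pt} {a b p q : ℤ} {u v : Pt} (h : PConn F (Rect a b p q) u v) :
    Pw (F ∩ RS a b p q) u v := by
  have key : v ∈ Rect a b p q ∧ Pw (F ∩ RS a b p q) u v := by
    obtain ⟨h0, h1⟩ := h
    induction h1 with
    | refl => exact ⟨h0, ReflTransGen.refl⟩
    | @tail x y _ hxy ih =>
      have hxm := ih.1
      have hym := hxy.2
      refine ⟨hym, ih.2.tail ⟨hxy.1.1, hxy.1.2.1, hxy.1.2.2, ?_⟩⟩
      rw [mem_rect] at hxm hym
      obtain ⟨⟨s1, s2, s3⟩, s4⟩ := hxy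
      simp only [RS, Set.mem_ofPred_eq]
      omega
  exact key.2

/-- The frozen squares `Z` of the colour `e` and the two classes `L`, `R` of sites. -/
structure Frz (e : Bool) (a b p q : ℤ) (Z : Set Pt) (c0 c1 : Pt → Prop) (L R : Set Pt) : Prop where
  sub : Z ⊆ RS a b p q
  L0 : ∀ s ∈ Rect a b p q, (s.1 + s.2) % 2 = pr e → c0 s → s ∈ L
  R0 : ∀ s ∈ Rect a b p q, (s.1 + s.2) % 2 = pr e → c1 s → s ∈ R
  L1 : ∀ s ∈ L, (s.1 + s.2) % 2 = pr e ∧ ∃ t, c0 t ∧ Pw Z s t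
  R1 : ∀ s ∈ R, (s.1 + s.2) % 2 = pr e ∧ ∃ t, c1 t ∧ Pw Z s t
  L2 : ∀ s t, s ∈ L → PStep Z s t → t ∈ L
  ZLR : ∀ s t, PStep Z s t → (s.1 + s.2) % 2 = pr e → s ∈ L ∨ s ∈ R
  LR : ∀ s, s ∈ L → s ∉ R

variable {e : Bool} {a b p q : ℤ} {G Z W L R B T : Set Pt} {c0 c1 : Pt → Prop} {w : Cfg}

theorem step_sym {F : Set Pt} {u v : Pt} (h : PStep F u v) : PStep F v u := h.symm

/-- from a crossing with frozen squares to a path in `G` -/
theorem Frz.jn (h : Frz e a b p q Z c0 c1 L R) {s t : Pt} (hs : c0 s) (ht : c1 t)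
    (hse : (s.1 + s.2) % 2 = pr e) (hst : PConn ((cs e w ∩ G) ∪ Z) (Rect a b p q) s t) :
    w ∈ Jn e G L R := by
  have hsR := hst.left_mem
  have htR := hst.right_mem
  have hte : (t.1 + t.2) % 2 = pr e := by rw [← hst.parity, hse]
  have key : t ∈ L ∨ (∃ u ∈ L, Pw (cs e w ∩ G) u t) ∨ w ∈ Jn e G L R := by
    clear ht htR hte
    obtain ⟨h0, h1⟩ := hst
    have hpar : ∀ {y : Pt}, ReflTransGen (fun u v => PStep ((cs e w ∩ G) ∪ Z) u v ∧
        v ∈ Rect a b p q) s y → (y.1 + y.2) % 2 = pr e := fun {y} hy => by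
      rw [← (show PConn ((cs e w ∩ G) ∪ Z) (Rect a b p q) s y from ⟨h0, hy⟩).parity, hse]
    induction h1 with
    | refl => exact Or.inl (h.L0 _ h0 hse hs)
    | @tail x y hx hxy ih =>
      have hxe := hpar hx
      obtain ⟨⟨s1, s2, s3⟩, -⟩ := hxy
      rcases ih with ih | ⟨u, hu, ih⟩ | ih
      · rcases s3 with s3 | s3
        · exact Or.inr (Or.inl ⟨x, ih, ReflTransGen.single ⟨s1, s2, s3⟩⟩)
        · exact Or.inl (h.L2 x y ih ⟨s1, s2, s3⟩)
      · rcases s3 with s3 | s3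
        · exact Or.inr (Or.inl ⟨u, hu, ih.tail ⟨s1, s2, s3⟩⟩)
        · rcases h.ZLR x y ⟨s1, s2, s3⟩ hxe with h2 | h2
          · exact Or.inl (h.L2 x y h2 ⟨s1, s2, s3⟩)
          · exact Or.inr (Or.inr ⟨u, hu, x, h2, ih⟩)
      · exact Or.inr (Or.inr ih)
  rcases key with k | ⟨u, hu, k⟩ | k
  · exact absurd (h.R0 t htR hte ht) (h.LR t k)
  · exact ⟨u, hu, t, h.R0 t htR hte ht, k⟩
  · exact k

/-- from a path in `G` to a crossing with frozen squares -/
theorem Frz.cross (h : Frz e a b p q Z c0 c1 L R) (hG : G ⊆ RS a b p q) (hw : w ∈ Jn e G L R) :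
    ∃ s t : Pt, c0 s ∧ c1 t ∧ (s.1 + s.2) % 2 = pr e ∧
      PConn ((cs e w ∩ G) ∪ Z) (Rect a b p q) s t := by
  obtain ⟨u, hu, v, hv, huv⟩ := hw
  obtain ⟨hue, s, hs, hus⟩ := h.L1 u hu
  obtain ⟨hve, t, ht, hvt⟩ := h.R1 v hv
  have huR : u ∈ Rect a b p q := by
    rcases ReflTransGen.cases_head huv with h1 | ⟨x, hx, -⟩
    · exact absurd hv (by rw [← h1]; exact h.LR u hu)
    · exact (step_rect (F := Set.univ) ⟨hx.1, hx.2.1, Set.mem_univ _, hG hx.2.2.2⟩).1
  have s1 : cs e w ∩ G ⊆ ((cs e w ∩ G) ∪ Z) ∩ RS a b p q := fun x hx => ⟨Or.inl hx, hG hx.2⟩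
  have s2 : Z ⊆ ((cs e w ∩ G) ∪ Z) ∩ RS a b p q := fun x hx => ⟨Or.inr hx, h.sub hx⟩
  have c1 := Pw.mono s1 huv
  have c2 := Pw.mono s2 hus
  have c3 := Pw.mono s2 hvt
  have d2 := pw_rect c2 huR
  have d1 := pw_rect (c1.trans c3) huR
  refine ⟨s, t, hs, ht, ?_, d2.symm.trans d1⟩
  rw [← d2.parity, hue]

/-- **Duality in a region with frozen squares.** -/
theorem quad_frz (hab : a ≤ b) (hpq : p ≤ q) (hG : G ⊆ RS a b p q)
    (hcov : ∀ v ∈ RS a b p q, v ∈ G ∨ v ∈ Z ∨ v ∈ W) (hGZ : ∀ v ∈ G, v ∉ Z) (hGW : ∀ v ∈ G, v ∉ W)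
    (hZW : ∀ v ∈ Z, v ∉ W) (h1 : Frz e a b p q Z (fun s => s.1 = a) (fun s => s.1 = b) L R)
    (h2 : Frz (!e) a b p q W (fun s => s.2 = p) (fun s => s.2 = q) B T) : Quad e G L R B T := by
  refine ⟨fun u hu => (h1.L1 u hu).1, fun u hu => (h1.R1 u hu).1, fun u hu => (h2.L1 u hu).1,
    fun u hu => (h2.R1 u hu).1, fun w => ?_⟩
  have hcomp : ∀ v ∈ RS a b p q, v ∈ ((cs e w ∩ G) ∪ Z)ᶜ ↔ v ∈ (cs (!e) w ∩ G) ∪ W := by
    intro v hv
    rw [← cs_compl]
    simp only [Set.mem_compl_iff, Set.mem_union, Set.mem_inter_iff]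
    rcases hcov v hv with h3 | h3 | h3
    · have h4 := hGZ v h3
      have h5 := hGW v h3
      tauto
    · have h4 : v ∉ G := fun h => hGZ v h h3
      have h5 := hZW v h3
      tauto
    · have h4 : v ∉ G := fun h => hGW v h h3
      have h5 : v ∉ Z := fun h => hZW v h h3
      tauto
  have conv : ∀ {s t : Pt}, PConn ((cs e w ∩ G) ∪ Z)ᶜ (Rect a b p q) s t ↔
      PConn ((cs (!e) w ∩ G) ∪ W) (Rect a b p q) s t := fun {s t} =>
    ⟨fun k => congr_rect (fun v hv k1 k2 k3 k4 => (hcomp v ⟨k1, k2, k3, k4⟩).1 hv) k,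
      fun k => congr_rect (fun v hv k1 k2 k3 k4 => (hcomp v ⟨k1, k2, k3, k4⟩).2 hv) k⟩
  constructor
  · intro hw hw'
    obtain ⟨s, t, hs, ht, hse, hst⟩ := h1.cross hG hw
    obtain ⟨s', t', hs', ht', hse', hst'⟩ := h2.cross hG hw'
    refine excl_rect (pr_or e) hst hs ht hse (conv.2 hst') hs' ht' ?_
    rw [← pr_not]
    exact hse'
  · intro hw
    rcases Vale.Agent.P167.H704.Q.alt_H e hab hpq (cof e ((cs e w ∩ G) ∪ Z)) with
      ⟨s, t, hs, ht, hse, hst⟩ | ⟨s, t, hs, ht, hse, hst⟩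
    · rw [cs_cof] at hst
      exact h1.jn hs ht hse hst
    · rw [cs_cof'] at hst
      exact absurd (h2.jn hs ht hse (conv.1 hst)) hw

/-! ### Zigzags -/

theorem zig_down {F : Set Pt} {c p : ℤ} : ∀ (k : ℕ) (s : Pt), (s.1 = c ∨ s.1 = c + 1) →
    s.2 = p + k → (∀ j, p ≤ j → j < s.2 → (c, j) ∈ F) → ∃ t : Pt, (t.1 = c ∨ t.1 = c + 1) ∧
      t.2 = p ∧ Pw F s t := by
  intro k
  induction k with
  | zero => exact fun s hs hk _ => ⟨s, hs, by simpa using hk, ReflTransGen.refl⟩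
  | succ k ih =>
    intro s hs hk hF
    push_cast at hk
    obtain ⟨t, h1, h2, h3⟩ := ih (2 * c + 1 - s.1, s.2 - 1) (by dsimp only; omega)
      (by dsimp only; omega) (fun j hj hj' => hF j hj (by dsimp only at hj'; omega))
    refine ⟨t, h1, h2, ReflTransGen.head ⟨by dsimp only; omega, by dsimp only; omega, ?_⟩ h3⟩
    have e1 : ((min s.1 (2 * c + 1 - s.1), min s.2 (s.2 - 1)) : Pt) = (c, s.2 - 1) := by
      refine Prod.ext ?_ ?_ <;> dsimp only <;> omega
    rw [e1]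
    exact hF _ (by omega) (by omega)

theorem zig_up {F : Set Pt} {c q : ℤ} : ∀ (k : ℕ) (s : Pt), (s.1 = c ∨ s.1 = c + 1) →
    s.2 + k = q → (∀ j, s.2 ≤ j → j < q → (c, j) ∈ F) → ∃ t : Pt, (t.1 = c ∨ t.1 = c + 1) ∧
      t.2 = q ∧ Pw F s t := by
  intro k
  induction k with
  | zero => exact fun s hs hk _ => ⟨s, hs, by simpa using hk, ReflTransGen.refl⟩
  | succ k ih =>
    intro s hs hk hF
    push_cast at hk
    obtain ⟨t, h1, h2, h3⟩ := ih (2 * c + 1 - s.1, s.2 + 1) (by dsimp only; omega)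
      (by dsimp only; omega) (fun j hj hj' => hF j (by dsimp only at hj; omega) hj')
    refine ⟨t, h1, h2, ReflTransGen.head ⟨by dsimp only; omega, by dsimp only; omega, ?_⟩ h3⟩
    have e1 : ((min s.1 (2 * c + 1 - s.1), min s.2 (s.2 + 1)) : Pt) = (c, s.2) := by
      refine Prod.ext ?_ ?_ <;> dsimp only <;> omega
    rw [e1]
    exact hF _ (by omega) (by omega)

theorem zig_left {F : Set Pt} {c p : ℤ} : ∀ (k : ℕ) (s : Pt), (s.2 = c ∨ s.2 = c + 1) →
    s.1 = p + k → (∀ j, p ≤ j → j < s.1 → (j, c) ∈ F) → ∃ t : Pt, (t.2 = c ∨ t.2 = c + 1) ∧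
      t.1 = p ∧ Pw F s t := by
  intro k
  induction k with
  | zero => exact fun s hs hk _ => ⟨s, hs, by simpa using hk, ReflTransGen.refl⟩
  | succ k ih =>
    intro s hs hk hF
    push_cast at hk
    obtain ⟨t, h1, h2, h3⟩ := ih (s.1 - 1, 2 * c + 1 - s.2) (by dsimp only; omega)
      (by dsimp only; omega) (fun j hj hj' => hF j hj (by dsimp only at hj'; omega))
    refine ⟨t, h1, h2, ReflTransGen.head ⟨by dsimp only; omega, by dsimp only; omega, ?_⟩ h3⟩
    have e1 : ((min s.1 (s.1 - 1), min s.2 (2 * c + 1 - s.2)) : Pt) = (s.1 - 1, c) := by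
      refine Prod.ext ?_ ?_ <;> dsimp only <;> omega
    rw [e1]
    exact hF _ (by omega) (by omega)

end Vale.Agent.P167.H15
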