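import Vale.Agent.P167.N.NET.Rough
import Vale.Agent.P167.H816.Stop

/-!
# P167: an arm is joined to the other end of a tube

`stop_ge`: exploration with a weight. `net1`: in a region `G` with planar duality the arc `A₁` is
joined to the arc `A₃`; a tube `T` starts at the second arc, leaves `G` only through the fourth arc and
ends at `B`; then `A₁` is joined to `B` or to the corners of `L`, with probability at least the one of
the tube.
-/

set_option autoImplicit false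
set_option linter.unusedSectionVars false

namespace Vale.Agent.P167.H15

open Finset Vale.Agent.P167 Vale.Agent.P167.FK Vale.Agent.P167.H816
  Vale.Agent.P167.H632 Vale.Agent.P167.H871 Vale.Agent.P167.H192.TA Vale.Agent.P167.N.NET
open Vale.Agent.P145.FB (PStep PConn)
open Relation (ReflTransGen)

variable {Q : ℝ} {D : Finset Pt} {η : Cfg}

/-- **Exploration** with a weight `W`. -/
theorem stop_ge (hQ : 0 < Q) (hη : Good η) {E : Cfg → Finset Pt} {A B : Set Cfg} {W : Cfg → ℝ}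
    (hE : ∀ ω, E ω ⊆ D) (hself : ∀ ω ω' : Cfg, (∀ v, v ∉ E ω → ω v = ω' v) → E ω' = E ω)
    (hA : ∀ ω ω' : Cfg, (∀ v, v ∉ E ω → ω v = ω' v) → (ω ∈ A ↔ ω' ∈ A))
    (hW : ∀ ω ω' : Cfg, (∀ v, v ∉ E ω → ω v = ω' v) → W ω = W ω') (hW0 : ∀ ω, 0 ≤ W ω) {c : ℝ}
    (h : ∀ S ⊆ D, cf D η S ∈ A → c ≤ Pr Q (E (cf D η S)) (cf D η S) B) :
    c * Ex Q D η (fun ω => W ω * A.indicator 1 ω) ≤
      Ex Q D η (fun ω => W ω * (A ∩ B).indicator 1 ω) := by
  classical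
  set G : Finset Pt → Cfg → ℝ := fun E₀ ω => if ω ∈ A ∧ E ω = E₀ then W ω else 0 with hG
  have hind : ∀ E₀, FKA.Ind E₀ (G E₀) := by
    intro E₀ ω ω' hωω'
    have key : ∀ ω ω' : Cfg, (∀ v, v ∉ E₀ → ω v = ω' v) → (ω ∈ A ∧ E ω = E₀) →
        (ω' ∈ A ∧ E ω' = E₀) := by
      rintro ω ω' h1 ⟨h2, h3⟩
      rw [← h3] at h1
      exact ⟨(hA ω ω' h1).1 h2, (hself ω ω' h1).trans h3⟩
    have h1 : (ω ∈ A ∧ E ω = E₀) ↔ (ω' ∈ A ∧ E ω' = E₀) :=
      ⟨key ω ω' hωω', key ω' ω fun v hv => (hωω' v hv).symm⟩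
    simp only [hG]
    by_cases h2 : ω ∈ A ∧ E ω = E₀
    · rw [if_pos h2, if_pos (h1.1 h2)]
      refine hW ω ω' fun v hv => hωω' v ?_
      rw [← h2.2]
      exact hv
    · rw [if_neg h2, if_neg fun h3 => h2 (h1.2 h3)]
  have hsum : ∀ ω, ∑ E₀ ∈ D.powerset, G E₀ ω = W ω * A.indicator 1 ω := by
    intro ω
    by_cases hω : ω ∈ A
    · rw [Set.indicator_of_mem hω, Pi.one_apply, mul_one, sum_eq_single (E ω)]
      · simp [hG, hω]
      · intro E₀ _ hne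
        simp only [hG]
        rw [if_neg]
        exact fun h => hne h.2.symm
      · exact fun h => absurd (mem_powerset.2 (hE ω)) h
    · rw [Set.indicator_of_notMem hω, mul_zero]
      refine sum_eq_zero fun E₀ _ => ?_
      simp [hG, hω]
  have e1 : c * Ex Q D η (fun ω => W ω * A.indicator 1 ω) =
      ∑ E₀ ∈ D.powerset, Ex Q D η (fun ω => G E₀ ω * c) := by
    rw [← FKA.Ex_sum, ← FKA.Ex_mul_left]
    refine FKA.Ex_congr fun S _ => ?_
    rw [← sum_mul, hsum, mul_comm]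
  have e2 : Ex Q D η (fun ω => W ω * (A ∩ B).indicator 1 ω) =
      ∑ E₀ ∈ D.powerset, Ex Q D η (fun ω => G E₀ ω * B.indicator 1 ω) := by
    rw [← FKA.Ex_sum]
    refine FKA.Ex_congr fun S _ => ?_
    rw [← sum_mul, hsum, FKA.ind_inter, mul_assoc]
  rw [e1, e2]
  refine sum_le_sum fun E₀ hE₀ => ?_
  have h3 := FKA.markov (F := B.indicator 1) H259.f_markov hQ (mem_powerset.1 hE₀) hη (hind E₀)
  rw [h3]
  refine FKA.Ex_mono hQ fun S hS => ?_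
  by_cases h1 : cf D η S ∈ A ∧ E (cf D η S) = E₀
  · have h2 := h S hS h1.1
    rw [h1.2] at h2
    simp only [hG, if_pos h1]
    exact mul_le_mul_of_nonneg_left h2 (hW0 _)
  · simp only [hG, if_neg h1, zero_mul]
    exact le_rfl

variable {e : Bool} {G T L : Finset Pt} {A₁ A₃ S₂ S₄ A B : Set Pt}

/-- **An arm is joined to the other end of a tube.** -/
theorem net1 (hQ : 0 < Q) (hQ1 : Q ≤ 1) (hη : Good η) (H : Quad e ↑G A₁ A₃ S₂ S₄)
    (hG : Fan e ↑G) (hL : L ⊆ T) (hD : T \ L ⊆ D) (hA : A ⊆ Bd e T) (hB : B ⊆ Bd e T)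
    (hA' : ∀ a ∈ A, ∃ g ∈ G, Cor e g a ∧ ∃ s ∈ S₂, Cor (!e) g s)
    (hout : ∀ t ∈ T \ L, t ∉ G → ∀ y, Cor e t y → y ∈ Vc e (↑G : Set Pt) → Nx e ↑G S₄ y)
    (hend : ∀ z ∈ B ∪ Vc e (↑L : Set Pt), z ∈ Vc e (↑G : Set Pt) → Nx e ↑G S₄ z)
    {W : Cfg → ℝ} (hW0 : ∀ ω, 0 ≤ W ω) (hW : FKA.Ind (T \ L) W) :
    VT Q e T A B * Ex Q D η (fun ω => W ω * (Jn e (↑G : Set Pt) A₁ A₃).indicator 1 ω) ≤
      Ex Q D η (fun ω => W ω *
        (Jn e (↑(G ∪ (T \ L)) : Set Pt) A₁ (B ∪ Vc e (↑L : Set Pt))).indicator 1 ω) := by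
  classical
  -- the unexplored squares of the tube
  obtain ⟨E, hE⟩ : ∃ E : Cfg → Finset Pt, E = fun ω => (T \ L) \ Rv (!e) G S₂ ω := ⟨_, rfl⟩
  have hEm : ∀ ω v, v ∈ E ω ↔ (v ∈ T ∧ v ∉ L) ∧ v ∉ Rs (!e) (↑G : Set Pt) S₂ ω := by
    intro ω v
    rw [hE]
    simp only [mem_sdiff, mem_Rv]
  have hR : ∀ ω ω' : Cfg, (∀ v, v ∉ E ω → ω v = ω' v) → ∀ v ∈ Rs (!e) (↑G : Set Pt) S₂ ω,
      ω' v = ω v := by
    intro ω ω' h v hv
    refine (h v fun h' => ?_).symm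
    exact ((hEm ω v).1 h').2 hv
  have hself : ∀ ω ω' : Cfg, (∀ v, v ∉ E ω → ω v = ω' v) → E ω' = E ω := by
    intro ω ω' h
    ext v
    rw [hEm, hEm, Rs_congr H.p2 (hR ω ω' h)]
  have hAdet : ∀ ω ω' : Cfg, (∀ v, v ∉ E ω → ω v = ω' v) →
      (ω ∈ Jn e (↑G : Set Pt) A₁ A₃ ↔ ω' ∈ Jn e (↑G : Set Pt) A₁ A₃) := by
    intro ω ω' h
    have e1 : ∀ χ : Cfg, χ ∈ Jn e (↑G : Set Pt) A₁ A₃ ↔
        ¬ ∃ x ∈ S₄, x ∈ Cl (!e) (↑G : Set Pt) S₂ χ := by
      intro χ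
      rw [H.iff]
      refine not_congr ⟨?_, ?_⟩
      · rintro ⟨s, hs, x, hx, k⟩
        exact ⟨x, hx, s, hs, k⟩
      · rintro ⟨x, hx, s, hs, k⟩
        exact ⟨s, hs, x, hx, k⟩
    rw [e1, e1, Cl_congr H.p2 (hR ω ω' h)]
  have hKT : ∀ ω, T \ ((Rv (!e) G S₂ ω ∩ T) ∪ L) = E ω := by
    intro ω
    ext v
    rw [hEm, mem_sdiff, mem_union, mem_inter, mem_Rv]
    tauto
  have key := stop_ge (Q := Q) (D := D) (η := η) (E := E) (A := Jn e (↑G : Set Pt) A₁ A₃)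
    (B := Jn e (↑(G ∪ (T \ L)) : Set Pt) A₁ (B ∪ Vc e (↑L : Set Pt))) (W := W)
    (c := VT Q e T A B) hQ hη
    (fun ω v hv => hD (mem_sdiff.2 ((hEm ω v).1 hv).1)) hself hAdet
    (fun ω ω' h => hW ω ω' fun v hv => h v fun h' => hv (mem_sdiff.2 ((hEm ω v).1 h').1)) hW0
    (fun S hS hSA => ?_)
  · refine key.trans (FKA.Ex_mono hQ fun S _ => mul_le_mul_of_nonneg_left ?_ (hW0 _))
    exact Set.indicator_le_indicator_of_subset Set.inter_subset_right (fun _ => zero_le_one) _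
  · -- the conditional probability
    set ω := cf D η S with hω
    have hgood : Good ω := by
      rw [hω]
      exact good_cf D hη S
    have h1 := rough (e := e) (K₁ := Rv (!e) G S₂ ω ∩ T) (K₂ := L) hQ hQ1 inter_subset_right hL
      hA hB hgood
    rw [hKT ω] at h1
    refine h1.trans ?_
    unfold Pr
    refine FKA.Ex_mono hQ fun S' hS' => ?_
    obtain ⟨ω', hω'⟩ : ∃ ω', ω' = cf (E ω) ω S' := ⟨_, rfl⟩
    rw [← hω']
    have hoff : ∀ v, v ∉ E ω → ω v = ω' v := fun v hv => by rw [hω', FKA.cf_out hv]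
    have hAω' := (hAdet ω ω' hoff).1 hSA
    have hRs := Rs_congr H.p2 (hR ω ω' hoff)
    by_cases hm : ω' ∈ Jn e (↑(E ω) : Set Pt) (A ∪ Vc e ↑(Rv (!e) G S₂ ω ∩ T))
        (B ∪ Vc e (↑L : Set Pt))
    · have hm' : ω' ∈ Jn e (↑(G ∪ (T \ L)) : Set Pt) A₁ (B ∪ Vc e (↑L : Set Pt)) := by
        obtain ⟨p, hp, z, hz, hpz⟩ := hm
        have hpK : p ∈ Vc e (Rs (!e) (↑G : Set Pt) S₂ ω') := by
          rw [hRs]
          rcases hp with hp | ⟨v, hv, hp⟩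
          · obtain ⟨g, hg, k1, s, hs, k2⟩ := hA' p hp
            exact ⟨g, ⟨hg, s, Cl_seed hs, k2⟩, k1⟩
          · exact ⟨v, mem_Rv.1 (mem_inter.1 (mem_coe.1 hv)).1, hp⟩
        obtain ⟨a, -, ha, u, hu, v, -, hua, -⟩ := piv_end (T := ↑(E ω)) H hG hAω' hpK
          (fun t ht => by
            rw [hRs]
            exact ((hEm ω t).1 (mem_coe.1 ht)).2)
          (fun t ht htG y hy hyG => hout t (mem_sdiff.2 ((hEm ω t).1 (mem_coe.1 ht)).1)
            (fun h => htG (mem_coe.2 h)) y hy hyG) (hend z hz) hpz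
        refine ⟨u, hu, z, hz, (hua.mono ?_).trans (ha.mono ?_)⟩
        · rintro t ⟨ht1, ht2⟩
          exact ⟨ht1, mem_coe.2 (mem_union_left _ (mem_coe.1 ht2))⟩
        · rintro t ⟨ht1, ht2⟩
          exact ⟨ht1, mem_coe.2 (mem_union_right _
            (mem_sdiff.2 ((hEm ω t).1 (mem_coe.1 ht2)).1))⟩
      rw [Set.indicator_of_mem hm, Set.indicator_of_mem hm']
    · rw [Set.indicator_of_notMem hm]
      exact FKA.ind_nonneg _ _

end Vale.Agent.P167.H15
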